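import Vale.Agent.P313.NW.H126.Seed

/-!
Static digits.
-/

namespace Vale.Agent.P313.NW.H427

open Vale.Agent.P313.NW.BP

/-- Static digits: the parameters, the offsets, the seed of the sampler; `sd` is the number of the
seed. -/
def statN (p : BP.Par2) (sd j : ℕ) : ℕ :=
  if j = 0 then p.n else if j = 1 then p.q else if j = 2 then p.b else if j = 3 then p.r
  else if j = 4 then p.rk else if j = 5 then p.K else if j = 6 then p.Th1
  else if j = 7 then p.D else if j = 8 then p.JF else if j = 9 then p.JN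
  else if j = 10 then p.Th else if j = 11 then p.cmax else if j = 12 then p.nd
  else if j = 13 then p.Lam else if j = 14 then p.Q else if j = 15 then p.DC
  else if j = 16 then p.c0 else if j = 17 then p.lw else if j = 18 then p.Om
  else if j = 19 then p.m else if j = 20 then p.S
  else if j < 64 then 0
  else if j < 64 + 6 * p.S then sd / p.D ^ (j - 64) % p.D
  else sd / p.D ^ (6 * p.S) / p.Q ^ (j - (64 + 6 * p.S)) % p.Q

/-- All parameters are at most `B`. -/
structure ParLe (p : BP.Par2) (B : ℕ) : Prop where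
  n : p.n ≤ B
  q : p.q ≤ B
  b : p.b ≤ B
  r : p.r ≤ B
  rk : p.rk ≤ B
  K : p.K ≤ B
  Th1 : p.Th1 ≤ B
  D : p.D ≤ B
  JF : p.JF ≤ B
  JN : p.JN ≤ B
  Th : p.Th ≤ B
  cmax : p.cmax ≤ B
  nd : p.nd ≤ B
  Lam : p.Lam ≤ B
  Q : p.Q ≤ B
  DC : p.DC ≤ B
  c0 : p.c0 ≤ B
  lw : p.lw ≤ B
  Om : p.Om ≤ B
  m : p.m ≤ B
  S : p.S ≤ B

theorem ite_le' {P : Prop} [Decidable P] {a b B : ℕ} (ha : a ≤ B) (hb : b ≤ B) :
    (if P then a else b) ≤ B := by
  split_ifs
  · exact ha
  · exact hb

theorem ParLe.stat {p : BP.Par2} {B : ℕ} (h : ParLe p B) (hD : 0 < p.D) (hQ : 0 < p.Q)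
    (sd j : ℕ) : statN p sd j ≤ B := by
  have b0 : sd / p.D ^ (j - 64) % p.D ≤ B := (Nat.mod_lt _ hD).le.trans h.D
  have b1 : sd / p.D ^ (6 * p.S) / p.Q ^ (j - (64 + 6 * p.S)) % p.Q ≤ B :=
    (Nat.mod_lt _ hQ).le.trans h.Q
  unfold statN
  exact ite_le' h.n (ite_le' h.q (ite_le' h.b (ite_le' h.r (ite_le' h.rk (ite_le' h.K
    (ite_le' h.Th1 (ite_le' h.D (ite_le' h.JF (ite_le' h.JN (ite_le' h.Th (ite_le' h.cmax
    (ite_le' h.nd (ite_le' h.Lam (ite_le' h.Q (ite_le' h.DC (ite_le' h.c0 (ite_le' h.lw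
    (ite_le' h.Om (ite_le' h.m (ite_le' h.S (ite_le' (Nat.zero_le _)
    (ite_le' b0 b1))))))))))))))))))))))

section digits

variable (p : BP.Par2) (sd : ℕ)

theorem statN_0 : statN p sd 0 = p.n := by simp [statN]
theorem statN_1 : statN p sd 1 = p.q := by simp [statN]
theorem statN_2 : statN p sd 2 = p.b := by simp [statN]
theorem statN_3 : statN p sd 3 = p.r := by simp [statN]
theorem statN_4 : statN p sd 4 = p.rk := by simp [statN]
theorem statN_5 : statN p sd 5 = p.K := by simp [statN]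
theorem statN_6 : statN p sd 6 = p.Th1 := by simp [statN]
theorem statN_7 : statN p sd 7 = p.D := by simp [statN]
theorem statN_8 : statN p sd 8 = p.JF := by simp [statN]
theorem statN_9 : statN p sd 9 = p.JN := by simp [statN]
theorem statN_10 : statN p sd 10 = p.Th := by simp [statN]
theorem statN_11 : statN p sd 11 = p.cmax := by simp [statN]
theorem statN_12 : statN p sd 12 = p.nd := by simp [statN]
theorem statN_13 : statN p sd 13 = p.Lam := by simp [statN]
theorem statN_14 : statN p sd 14 = p.Q := by simp [statN]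
theorem statN_15 : statN p sd 15 = p.DC := by simp [statN]
theorem statN_16 : statN p sd 16 = p.c0 := by simp [statN]
theorem statN_17 : statN p sd 17 = p.lw := by simp [statN]
theorem statN_18 : statN p sd 18 = p.Om := by simp [statN]
theorem statN_19 : statN p sd 19 = p.m := by simp [statN]
theorem statN_20 : statN p sd 20 = p.S := by simp [statN]

end digits

theorem statN_off (p : BP.Par2) (sd : ℕ) {s i : ℕ} (hs : s < p.S) (hi : i < 6) :
    statN p sd (BP.stOff s i) = H126.oSd p sd s i := by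
  have h1 : statN p sd (BP.stOff s i) = sd / p.D ^ (6 * s + i) % p.D := by
    unfold statN BP.stOff
    have e : 64 + 6 * s + i - 64 = 6 * s + i := by omega
    rw [e]
    repeat rw [if_neg (by omega)]
    rw [if_pos (by omega)]
  rw [h1]
  unfold H126.oSd H126.offN
  have e2 : p.D ^ (6 * p.S) = p.D ^ (6 * s + i) * (p.D * p.D ^ (6 * p.S - (6 * s + i) - 1)) := by
    rw [← pow_succ', ← pow_add]
    congr 1
    omega
  rw [e2, Nat.mod_mul_right_div_self, Nat.mod_mul_right_mod]

theorem statN_seed (p : BP.Par2) (sd i : ℕ) : statN p sd (BP.stW p.S + i) = H126.wSd p sd i := by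
  unfold statN BP.stW H126.wSd
  have e : 64 + 6 * p.S + i - (64 + 6 * p.S) = i := by omega
  rw [e]
  repeat rw [if_neg (by omega)]

end Vale.Agent.P313.NW.H427
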